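import Vale.Agent.P251.G.BrDeg

/-!
# P052, block K1, K2 (helper102): the Brouwer degree `degR` is an integer, and the degree of an
odd continuous map on a ball is odd (Borsuk's theorem).
-/

open MeasureTheory Matrix Set Topology Bornology Metric
open scoped ContDiff Manifold

namespace Vale.Agent.P052.R2.H102

open Vale.Agent.P205.TI.Deg Vale.Agent.P251.G

variable {n : ℕ}

/-- Sard in equal dimension, in the form: small vectors outside the critical values. -/
lemma exists_small_regular {u : (Fin n → ℝ) → (Fin n → ℝ)}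
    {u' : (Fin n → ℝ) → (Fin n → ℝ) →L[ℝ] (Fin n → ℝ)} {s : Set (Fin n → ℝ)}
    (hu : ∀ x ∈ s, HasFDerivAt u (u' x) x) {ε : ℝ} (hε : 0 < ε) :
    ∃ y : Fin n → ℝ, ‖y‖ < ε ∧ ∀ x ∈ s, u x = y → (u' x).det ≠ 0 := by
  set s' : Set (Fin n → ℝ) := {x | x ∈ s ∧ (u' x).det = 0} with hs'
  have hnull : volume (u '' s') = 0 :=
    addHaar_image_eq_zero_of_det_fderivWithin_eq_zero volume
      (fun x hx => (hu x hx.1).hasFDerivWithinAt) (fun x hx => hx.2)
  have hball : ¬ (ball (0 : Fin n → ℝ) ε ⊆ u '' s') := by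
    intro h
    have h1 : volume (ball (0 : Fin n → ℝ) ε) = 0 := measure_mono_null h hnull
    exact (measure_ball_pos volume (0 : Fin n → ℝ) hε).ne' h1
  obtain ⟨y, hy, hy'⟩ := not_subset.1 hball
  refine ⟨y, by simpa using hy, fun x hx hxy hd => hy' ⟨x, ⟨hx, hd⟩, hxy⟩⟩

/-- the real valued degree is an integer -/
theorem degR_int {f : (Fin n → ℝ) → (Fin n → ℝ)} {W : Set (Fin n → ℝ)} (hW : IsOpen W)
    (hWb : IsBounded W) (hf : ContinuousOn f (closure W)) (hfr : ∀ x ∈ frontier W, f x ≠ 0) :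
    ∃ k : ℤ, degR f W = k := by
  obtain ⟨m, hm, hmb⟩ := exists_pos_lower_bound (frontier_compact hWb)
    (hf.mono frontier_subset_closure) hfr
  obtain ⟨g, hg, hg'⟩ := exists_smooth_approx (closure_compact hWb) hf (half_pos hm)
  obtain ⟨y, hy, hyr⟩ := exists_small_regular (u := g) (u' := fderiv ℝ g) (s := univ)
    (fun x _ => (hg.differentiable (by simp)).differentiableAt.hasFDerivAt) (half_pos hm)
  have hfy : ∀ x ∈ frontier W, ∀ t ∈ Icc (0:ℝ) 1, (1 - t) • f x + t • (g x - y) ≠ 0 := by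
    intro x hx t ht h0
    have h1 : f x = - (t • (g x - f x - y)) := by
      have : (1 - t) • f x + t • (g x - y) = f x + t • (g x - f x - y) := by
        simp only [smul_sub, sub_smul, one_smul]; abel
      rw [this] at h0
      exact eq_neg_of_add_eq_zero_left h0
    have h2 : ‖g x - f x - y‖ < m := by
      calc ‖g x - f x - y‖ ≤ ‖g x - f x‖ + ‖y‖ := norm_sub_le _ _
        _ < m / 2 + m / 2 := add_lt_add (hg' x (frontier_subset_closure hx)) hy
        _ = m := by ring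
    have h3 : ‖f x‖ < m := by
      rw [h1, norm_neg, norm_smul, Real.norm_eq_abs, abs_of_nonneg ht.1]
      calc t * ‖g x - f x - y‖ ≤ 1 * ‖g x - f x - y‖ := by
            exact mul_le_mul_of_nonneg_right ht.2 (norm_nonneg _)
        _ < m := by rw [one_mul]; exact h2
    exact absurd (hmb x hx) (not_le.2 h3)
  have hgy : ContDiff ℝ ∞ (fun x => g x - y) := hg.sub contDiff_const
  rw [degR_homotopy hW hWb hf hgy.continuous.continuousOn hfy]
  obtain ⟨Z, -, hZ⟩ := degR_regular hgy hW hWb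
    (fun x hx h0 => hfy x hx 1 (by simp) (by simp [h0]))
    (fun x _ h0 => by
      have h1 : fderiv ℝ (fun x => g x - y) x = fderiv ℝ g x := by
        rw [fderiv_sub_const]
      rw [h1]
      exact hyr x (mem_univ x) (sub_eq_zero.1 h0))
  refine ⟨∑ z ∈ Z, sg (fderiv ℝ (fun x => g x - y) z).det, ?_⟩
  rw [hZ]
  push_cast
  rfl

/-- one step of the equivariant perturbation -/
lemma odd_perturb_step {g : (Fin n → ℝ) → (Fin n → ℝ)} (hg : ContDiff ℝ ∞ g)
    (k : Fin n) {ε : ℝ} (hε : 0 < ε) :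
    ∃ y : Fin n → ℝ, ‖y‖ < ε ∧
      (∀ x, x k ≠ 0 → g x - (x k) ^ 3 • y = 0 →
        (fderiv ℝ (fun x => g x - (x k) ^ 3 • y) x).det ≠ 0) ∧
      (∀ x, x k = 0 → fderiv ℝ (fun x => g x - (x k) ^ 3 • y) x = fderiv ℝ g x) := by
  -- the derivative of `x ↦ x k`
  set π : (Fin n → ℝ) →L[ℝ] ℝ := ContinuousLinearMap.proj k with hπ
  have hπx : ∀ x, HasFDerivAt (fun x : Fin n → ℝ => x k) π x := fun x => π.hasFDerivAt
  have hgx : ∀ x, HasFDerivAt g (fderiv ℝ g x) x := fun x =>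
    (hg.differentiable (by simp)).differentiableAt.hasFDerivAt
  -- derivative of the perturbed map
  have hder : ∀ (y x : Fin n → ℝ), HasFDerivAt (fun x => g x - (x k) ^ 3 • y)
      (fderiv ℝ g x - ((3 * (x k) ^ 2) • π).smulRight y) x := by
    intro y x
    have h1 : HasFDerivAt (fun x : Fin n → ℝ => (x k) ^ 3) ((3 * (x k) ^ 2) • π) x := by
      have := (hπx x).pow 3
      simpa using this
    exact (hgx x).sub (h1.smul_const y)
  -- the quotient
  set u : (Fin n → ℝ) → (Fin n → ℝ) := fun x => ((x k) ^ 3)⁻¹ • g x with hu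
  set u' : (Fin n → ℝ) → (Fin n → ℝ) →L[ℝ] (Fin n → ℝ) := fun x =>
    ((x k) ^ 3)⁻¹ • fderiv ℝ g x
      + ((-((3 * (x k) ^ 2) / ((x k) ^ 3) ^ 2)) • π).smulRight (g x) with hu'
  have huder : ∀ x ∈ {x : Fin n → ℝ | x k ≠ 0}, HasFDerivAt u (u' x) x := by
    intro x hx
    have hx' : x k ≠ 0 := hx
    have h1 : HasFDerivAt (fun x : Fin n → ℝ => (x k) ^ 3) ((3 * (x k) ^ 2) • π) x := by
      have := (hπx x).pow 3
      simpa using this
    have h2 : HasFDerivAt (fun x : Fin n → ℝ => ((x k) ^ 3)⁻¹)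
        ((-((x k ^ 3) ^ 2)⁻¹) • ((3 * (x k) ^ 2) • π)) x :=
      HasDerivAt.comp_hasFDerivAt x (hasDerivAt_inv (pow_ne_zero 3 hx')) h1
    have h3 := h2.smul (hgx x)
    refine h3.congr_fderiv ?_
    rw [hu']
    ext v i
    simp only [_root_.add_apply, _root_.smul_apply,
      ContinuousLinearMap.smulRight_apply, Pi.add_apply, Pi.smul_apply, smul_eq_mul]
    ring
  obtain ⟨y, hy, hyr⟩ := exists_small_regular huder hε
  refine ⟨y, hy, ?_, ?_⟩
  · intro x hx h0
    have hgy : g x = (x k) ^ 3 • y := sub_eq_zero.1 h0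
    have hux : u x = y := by
      rw [hu]
      simp only
      rw [hgy, smul_smul, inv_mul_cancel₀ (pow_ne_zero 3 hx), one_smul]
    have h1 := hyr x hx hux
    rw [(hder y x).fderiv]
    have h2 : fderiv ℝ g x - ((3 * (x k) ^ 2) • π).smulRight y = (x k) ^ 3 • u' x := by
      rw [hu']
      ext v i
      simp only [_root_.sub_apply, _root_.add_apply,
        _root_.smul_apply,
        ContinuousLinearMap.smulRight_apply, Pi.add_apply, Pi.sub_apply, Pi.smul_apply,
        smul_eq_mul, hgy]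
      field_simp
      ring
    rw [h2]
    have h3 : ((x k) ^ 3 • u' x).det = ((x k) ^ 3) ^ n * (u' x).det := by
      simp [ContinuousLinearMap.det]
    rw [h3]
    exact mul_ne_zero (pow_ne_zero n (pow_ne_zero 3 hx)) h1
  · intro x hx
    rw [(hder y x).fderiv, hx]
    ext v i
    simp

/-- iterated perturbation -/
lemma odd_perturb {g : (Fin n → ℝ) → (Fin n → ℝ)} (hg : ContDiff ℝ ∞ g)
    (hodd : ∀ x, g (-x) = - g x) (hg0 : (fderiv ℝ g 0).det ≠ 0) {ε : ℝ} (hε : 0 < ε) :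
    ∀ k : ℕ, k ≤ n → ∃ G : (Fin n → ℝ) → (Fin n → ℝ), ContDiff ℝ ∞ G ∧ (∀ x, G (-x) = - G x) ∧
      (fderiv ℝ G 0).det ≠ 0 ∧ (∀ x, ‖x‖ ≤ 1 → ‖G x - g x‖ ≤ k * ε) ∧
      ∀ x, (∃ i : Fin n, (i : ℕ) < k ∧ x i ≠ 0) → G x = 0 → (fderiv ℝ G x).det ≠ 0 := by
  intro k
  induction k with
  | zero =>
    intro _
    refine ⟨g, hg, hodd, hg0, fun x _ => by simp, ?_⟩
    rintro x ⟨i, hi, -⟩
    exact absurd hi (Nat.not_lt_zero _)
  | succ k ih =>
    intro hk
    obtain ⟨G, hG, hGodd, hG0, hGg, hGr⟩ := ih (by omega)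
    set k' : Fin n := ⟨k, by omega⟩ with hk'
    obtain ⟨y, hy, hy1, hy2⟩ := odd_perturb_step hG k' hε
    refine ⟨fun x => G x - (x k') ^ 3 • y, ?_, ?_, ?_, ?_, ?_⟩
    · have h3 : ContDiff ℝ ∞ (fun x : Fin n → ℝ => (x k') ^ 3) := (contDiff_apply ℝ ℝ k').pow 3
      exact hG.sub (h3.smul contDiff_const)
    · intro x
      have h1 : (-x) k' ^ 3 = -(x k' ^ 3) := by
        rw [Pi.neg_apply]; ring
      simp only
      rw [hGodd, h1, neg_smul]
      abel
    · rw [hy2 0 rfl]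
      exact hG0
    · intro x hx
      have h1 : |x k'| ≤ 1 := (norm_le_pi_norm x k').trans hx
      have h2 : ‖(x k') ^ 3 • y‖ ≤ ε := by
        rw [norm_smul, Real.norm_eq_abs, abs_pow]
        calc |x k'| ^ 3 * ‖y‖ ≤ 1 * ‖y‖ :=
              mul_le_mul_of_nonneg_right (pow_le_one₀ (abs_nonneg _) h1) (norm_nonneg _)
          _ ≤ ε := by rw [one_mul]; exact hy.le
      calc ‖G x - (x k') ^ 3 • y - g x‖ = ‖(G x - g x) - (x k') ^ 3 • y‖ := by congr 1; abel
        _ ≤ ‖G x - g x‖ + ‖(x k') ^ 3 • y‖ := norm_sub_le _ _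
        _ ≤ k * ε + ε := add_le_add (hGg x hx) h2
        _ = ((k + 1 : ℕ) : ℝ) * ε := by push_cast; ring
    · rintro x ⟨i, hi, hxi⟩ h0
      by_cases hxk : x k' = 0
      · rw [hy2 x hxk]
        have hik : (i : ℕ) < k := by
          rcases Nat.lt_succ_iff_lt_or_eq.1 hi with h | h
          · exact h
          · exact absurd (by rw [show i = k' from Fin.ext h]; exact hxk) hxi
        refine hGr x ⟨i, hik, hxi⟩ ?_
        simpa [hxk] using h0
      · exact hy1 x hxk h0

/-- an odd function with invertible derivative at `0` near a continuous odd function -/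
lemma exists_odd_smooth {f : (Fin n → ℝ) → (Fin n → ℝ)} (hf : Continuous f)
    (hodd : ∀ x, f (-x) = - f x) {ε : ℝ} (hε : 0 < ε) :
    ∃ g : (Fin n → ℝ) → (Fin n → ℝ), ContDiff ℝ ∞ g ∧ (∀ x, g (-x) = - g x) ∧
      (fderiv ℝ g 0).det ≠ 0 ∧ ∀ x, ‖x‖ = 1 → ‖g x - f x‖ < ε := by
  obtain ⟨g0, hg0, hg0'⟩ := exists_smooth_approx (isCompact_closedBall (0 : Fin n → ℝ) 1)
    hf.continuousOn hε
  -- the odd part
  set g1 : (Fin n → ℝ) → (Fin n → ℝ) := fun x => (1 / 2 : ℝ) • (g0 x - g0 (-x)) with hg1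
  have hg1s : ContDiff ℝ ∞ g1 := (hg0.sub (hg0.comp contDiff_neg)).const_smul _
  have hg1o : ∀ x, g1 (-x) = - g1 x := by
    intro x
    simp only [hg1, neg_neg]
    rw [← smul_neg]
    congr 1
    abel
  have hg1f : ∀ x, ‖x‖ ≤ 1 → ‖g1 x - f x‖ < ε := by
    intro x hx
    have h1 := hg0' x (by simpa using hx)
    have h2 := hg0' (-x) (by simpa using hx)
    have h3 : g1 x - f x = (1 / 2 : ℝ) • ((g0 x - f x) - (g0 (-x) - f (-x))) := by
      rw [hodd x]
      simp only [hg1]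
      have : f x = (1 / 2 : ℝ) • (f x + f x) := by
        rw [← two_smul ℝ, smul_smul]; norm_num
      nth_rewrite 1 [this]
      rw [← smul_sub]
      congr 1
      abel
    rw [h3, norm_smul, Real.norm_eq_abs, abs_of_pos (by norm_num)]
    have h4 := norm_sub_le (g0 x - f x) (g0 (-x) - f (-x))
    linarith
  -- the bump
  let b : ContDiffBump (0 : Fin n → ℝ) := bumpFun n
  have hb0 : ∀ x, ‖x‖ = 1 → b x = 0 := by
    intro x hx
    apply b.zero_of_le_dist
    rw [dist_zero_right, hx]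
    exact le_refl _
  have hb1 : ∀ x, ‖x‖ ≤ 1 / 2 → b x = 1 := by
    intro x hx
    apply b.one_of_mem_closedBall
    rw [mem_closedBall_zero_iff]
    exact hx
  have hbn : ∀ x, b (-x) = b x := fun x => b.neg x
  refine ⟨fun x => (1 - b x) • g1 x + b x • x, ?_, ?_, ?_, ?_⟩
  · exact ((contDiff_const.sub b.contDiff).smul hg1s).add (b.contDiff.smul contDiff_id)
  · intro x
    simp only
    rw [hbn, hg1o, smul_neg, smul_neg, neg_add]
  · have h1 : (fun x => (1 - b x) • g1 x + b x • x) =ᶠ[𝓝 (0 : Fin n → ℝ)] fun x => x := by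
      have h2 : closedBall (0 : Fin n → ℝ) (1/2) ∈ 𝓝 (0 : Fin n → ℝ) :=
        closedBall_mem_nhds _ (by norm_num)
      filter_upwards [h2] with x hx
      rw [hb1 x (by simpa using hx)]
      simp
    rw [h1.fderiv_eq, fderiv_fun_id]
    have : (ContinuousLinearMap.id ℝ (Fin n → ℝ)).det = 1 := LinearMap.det_id
    rw [this]
    exact one_ne_zero
  · intro x hx
    simp only
    rw [hb0 x hx, sub_zero, one_smul, zero_smul, add_zero]
    exact hg1f x hx.le

/-- **Borsuk's theorem**: the degree of an odd continuous map on the unit ball is odd. -/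
theorem degR_odd {f : (Fin n → ℝ) → (Fin n → ℝ)} (hf : Continuous f)
    (hodd : ∀ x, f (-x) = - f x) (h0 : ∀ x, ‖x‖ = 1 → f x ≠ 0) :
    ∃ k : ℤ, degR f (ball 0 1) = ((2 * k + 1 : ℤ) : ℝ) := by
  classical
  have hbb : IsBounded (ball (0 : Fin n → ℝ) 1) := isBounded_ball
  have hfrn : ∀ x ∈ frontier (ball (0 : Fin n → ℝ) 1), ‖x‖ = 1 := by
    intro x hx
    have := frontier_ball_subset_sphere hx
    simpa using this
  obtain ⟨m, hm, hmb⟩ := exists_pos_lower_bound (isCompact_sphere (0 : Fin n → ℝ) 1)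
    hf.continuousOn (fun x hx => h0 x (by simpa using hx))
  have hm' : ∀ x, ‖x‖ = 1 → m ≤ ‖f x‖ := fun x hx => hmb x (by simpa using hx)
  obtain ⟨g, hg, hgodd, hg0, hgf⟩ := exists_odd_smooth hf hodd (half_pos hm)
  have hn : (0:ℝ) < 2 * (n + 1) := by positivity
  obtain ⟨G, hG, hGodd, hG0, hGg, hGr⟩ := odd_perturb hg hgodd hg0
    (div_pos hm hn) n le_rfl
  have hGf : ∀ x, ‖x‖ = 1 → ‖G x - f x‖ < m := by
    intro x hx
    have h1 : (n : ℝ) * (m / (2 * (n + 1))) ≤ m / 2 := by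
      have : (n : ℝ) * (m / (2 * (n + 1))) = (m / 2) * (n / (n + 1)) := by
        field_simp
      rw [this]
      have h2 : (n : ℝ) / (n + 1) ≤ 1 := by
        rw [div_le_one (by positivity)]; linarith
      nlinarith
    calc ‖G x - f x‖ = ‖(G x - g x) + (g x - f x)‖ := by congr 1; abel
      _ ≤ ‖G x - g x‖ + ‖g x - f x‖ := norm_add_le _ _
      _ < m / 2 + m / 2 := add_lt_add_of_le_of_lt ((hGg x hx.le).trans h1) (hgf x hx)
      _ = m := by ring
  have hhom : ∀ x ∈ frontier (ball (0 : Fin n → ℝ) 1), ∀ t ∈ Icc (0:ℝ) 1,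
      (1 - t) • f x + t • G x ≠ 0 := by
    intro x hx t ht h1
    have hx1 := hfrn x hx
    have h2 : f x = - (t • (G x - f x)) := by
      have : (1 - t) • f x + t • G x = f x + t • (G x - f x) := by
        simp only [smul_sub, sub_smul, one_smul]; abel
      rw [this] at h1
      exact eq_neg_of_add_eq_zero_left h1
    have h3 : ‖f x‖ < m := by
      rw [h2, norm_neg, norm_smul, Real.norm_eq_abs, abs_of_nonneg ht.1]
      calc t * ‖G x - f x‖ ≤ 1 * ‖G x - f x‖ :=
            mul_le_mul_of_nonneg_right ht.2 (norm_nonneg _)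
        _ < m := by rw [one_mul]; exact hGf x hx1
    exact absurd (hm' x hx1) (not_le.2 h3)
  have hGz : ∀ x, G x = 0 → (fderiv ℝ G x).det ≠ 0 := by
    intro x hx
    by_cases hx0 : x = 0
    · rw [hx0]; exact hG0
    · obtain ⟨i, hi⟩ := Function.ne_iff.1 hx0
      exact hGr x ⟨i, i.2, hi⟩ hx
  rw [degR_homotopy isOpen_ball hbb hf.continuousOn hG.continuous.continuousOn hhom]
  obtain ⟨Z, hZ, hZd⟩ := degR_regular hG isOpen_ball hbb
    (fun x hx h1 => hhom x hx 1 (by simp) (by simp [h1])) (fun x _ h1 => hGz x h1)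
  have hG00 : G 0 = 0 := by
    have := hGodd 0
    rw [neg_zero] at this
    exact self_eq_neg.1 this
  have h0Z : (0 : Fin n → ℝ) ∈ Z := (hZ 0).2 ⟨mem_ball_self one_pos, hG00⟩
  -- the signs are odd
  have hsg : ∀ z ∈ Z, ((sg (fderiv ℝ G z).det : ℤ) : ZMod 2) = 1 := by
    intro z hz
    rcases lt_or_gt_of_ne (hGz z ((hZ z).1 hz).2) with h | h
    · rw [sg_neg h]; decide
    · rw [sg_pos h]; decide
  have hcard : ((∑ z ∈ Z, sg (fderiv ℝ G z).det : ℤ) : ZMod 2) = 1 := by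
    push_cast
    rw [Finset.sum_congr rfl hsg, ← Finset.add_sum_erase Z _ h0Z]
    have h1 : ∑ z ∈ Z.erase 0, (1 : ZMod 2) = 0 := by
      refine Finset.sum_involution (fun z _ => -z) ?_ ?_ ?_ ?_
      · intro z _; decide
      · intro z hz _ h2
        have h3 : z = 0 := by
          have : z = -z := h2.symm
          exact self_eq_neg.1 this
        exact (Finset.mem_erase.1 hz).1 h3
      · intro z hz
        rw [Finset.mem_erase] at hz ⊢
        obtain ⟨h1, h2⟩ := hz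
        rw [hZ] at h2
        refine ⟨neg_ne_zero.2 h1, (hZ _).2 ⟨?_, ?_⟩⟩
        · simpa using h2.1
        · rw [hGodd, h2.2, neg_zero]
      · intro z _; exact neg_neg z
    rw [h1, add_zero]
  have hoddsum : Odd (∑ z ∈ Z, sg (fderiv ℝ G z).det) := by
    rw [← Int.not_even_iff_odd]
    intro he
    have : ((∑ z ∈ Z, sg (fderiv ℝ G z).det : ℤ) : ZMod 2) = 0 :=
      (ZMod.intCast_zmod_eq_zero_iff_dvd _ 2).2 he.two_dvd
    rw [this] at hcard
    exact absurd hcard (by decide)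
  obtain ⟨k, hk⟩ := hoddsum
  refine ⟨k, ?_⟩
  rw [hZd, ← hk]
  push_cast
  rfl

end Vale.Agent.P052.R2.H102
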