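import Vale.Agent.P052.R2.H102.DegOdd

/-!
# P052, block K4 (helper102): the KEY LEMMA, abstract form

`Φ : ℝᴺ → ℝᴺ` continuous, odd, of norm `≥ 3` on the unit sphere; `q A z z'` a continuous family of
quadratic forms (in the application `q A z z' = zᵀ A₊ z'`); `C i` the (open) colour cones.
-/

open MeasureTheory Matrix Set Topology Bornology Metric
open scoped ContDiff Manifold

namespace Vale.Agent.P052.R2.H102

open Vale.Agent.P205.TI.Deg Vale.Agent.P251.G

variable {N : ℕ}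

/-- excision: the degree on two open sets which contain the same zeros -/
lemma degR_excision {f : (Fin N → ℝ) → (Fin N → ℝ)} {W U : Set (Fin N → ℝ)}
    (hWb : IsBounded W) (hW : IsOpen W) (hf : ContinuousOn f (closure W)) (hU : IsOpen U)
    (hUW : U ⊆ W) (h : ∀ x ∈ closure W, f x = 0 → x ∈ U) : degR f W = degR f U := by
  classical
  have := degR_sum hWb hW hf ({()} : Finset Unit) (U := fun _ => U) (fun _ _ => hU)
    (fun _ _ => hUW) (by simp) (fun x hx h0 => ⟨(), by simp, h x hx h0⟩)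
  simpa using this

/-- additivity for two pieces -/
lemma degR_add {f : (Fin N → ℝ) → (Fin N → ℝ)} {W U₁ U₂ : Set (Fin N → ℝ)}
    (hWb : IsBounded W) (hW : IsOpen W) (hf : ContinuousOn f (closure W)) (hU₁ : IsOpen U₁)
    (hU₂ : IsOpen U₂) (hUW₁ : U₁ ⊆ W) (hUW₂ : U₂ ⊆ W) (hd : Disjoint U₁ U₂)
    (h : ∀ x ∈ closure W, f x = 0 → x ∈ U₁ ∨ x ∈ U₂) : degR f W = degR f U₁ + degR f U₂ := by
  classical
  have := degR_sum hWb hW hf (Finset.univ : Finset Bool) (U := fun b => if b then U₁ else U₂)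
    (by rintro (_ | _) _ <;> simp [hU₁, hU₂]) (by rintro (_ | _) _ <;> simp [hUW₁, hUW₂])
    (by
      rintro (_ | _) _ (_ | _) _ hne
      · exact absurd rfl hne
      · simpa [Function.onFun] using hd.symm
      · simpa [Function.onFun] using hd
      · exact absurd rfl hne)
    (fun x hx h0 => by
      rcases h x hx h0 with h1 | h1
      · exact ⟨true, by simp, by simpa using h1⟩
      · exact ⟨false, by simp, by simpa using h1⟩)
  rw [this]
  simp

/-- the open set cut out of the unit ball by finitely many strict inequalities -/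
def cutSet {ι : Type*} (r : ι → (Fin N → ℝ) → ℝ) : Set (Fin N → ℝ) :=
  {x | x ∈ ball (0 : Fin N → ℝ) 1 ∧ ∀ j, r j x < 0}

lemma cutSet_sub {ι : Type*} (r : ι → (Fin N → ℝ) → ℝ) : cutSet r ⊆ ball (0 : Fin N → ℝ) 1 :=
  fun _ hx => hx.1

lemma cutSet_open {ι : Type*} [Finite ι] {r : ι → (Fin N → ℝ) → ℝ} (hr : ∀ j, Continuous (r j)) :
    IsOpen (cutSet r) := by
  have : cutSet r = ball (0 : Fin N → ℝ) 1 ∩ ⋂ j, {x | r j x < 0} := by
    ext x; simp [cutSet]
  rw [this]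
  exact isOpen_ball.inter (isOpen_iInter_of_finite fun j => isOpen_lt (hr j) continuous_const)

lemma cutSet_closure {ι : Type*} {r : ι → (Fin N → ℝ) → ℝ} (hr : ∀ j, Continuous (r j)) {x}
    (hx : x ∈ closure (cutSet r)) : ‖x‖ ≤ 1 ∧ ∀ j, r j x ≤ 0 := by
  constructor
  · have h1 : closure (cutSet r) ⊆ closedBall (0 : Fin N → ℝ) 1 :=
      (closure_mono (cutSet_sub r)).trans closure_ball_subset_closedBall
    simpa using h1 hx
  · intro j
    have h1 : closure (cutSet r) ⊆ {x | r j x ≤ 0} :=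
      closure_minimal (fun y hy => (hy.2 j).le) (isClosed_le (hr j) continuous_const)
    exact h1 hx

lemma cutSet_bdd {ι : Type*} (r : ι → (Fin N → ℝ) → ℝ) : IsBounded (cutSet r) :=
  isBounded_ball.subset (cutSet_sub r)

lemma cutSet_frontier {ι : Type*} [Finite ι] {r : ι → (Fin N → ℝ) → ℝ}
    (hr : ∀ j, Continuous (r j)) {f : (Fin N → ℝ) → (Fin N → ℝ)}
    (h : ∀ x, ‖x‖ ≤ 1 → f x = 0 → ‖x‖ < 1 ∧ ∀ j, r j x ≠ 0) :
    ∀ x ∈ frontier (cutSet r), f x ≠ 0 := by
  intro x hx h0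
  rw [(cutSet_open hr).frontier_eq] at hx
  obtain ⟨h1, h2⟩ := cutSet_closure hr hx.1
  obtain ⟨h3, h4⟩ := h x h1 h0
  exact hx.2 ⟨by simpa using h3, fun j => lt_of_le_of_ne (h2 j) (h4 j)⟩

/-- the data of the key lemma -/
structure KeyData (N : ℕ) (V : Type*) [TopologicalSpace V] [Neg V] where
  Φ : (Fin N → ℝ) → (Fin N → ℝ)
  q : (Fin N → ℝ) → V → V → ℝ
  C : Fin N → Set V
  cont : Continuous Φ
  odd : ∀ x, Φ (-x) = - Φ x
  big : ∀ x, ‖x‖ = 1 → 3 ≤ ‖Φ x‖
  qcont : ∀ z', Continuous fun p : (Fin N → ℝ) × V => q p.1 p.2 z'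
  qneg : ∀ A z z', q A (-z) z' = - q A z z'
  r1 : ∀ a b A, (∀ i, i ≠ a → i ≠ b → Φ A i < 0) → (0 < Φ A a ∨ 0 < Φ A b) →
    ∃ l : V → ℝ, (∀ z z', q A z z' = l z * l z') ∧ ∀ z, z ∈ C a → z ∈ C b → l z ≠ 0
  Copen : ∀ i, IsOpen (C i)
  Cneg : ∀ i z, z ∈ C i → -z ∈ C i

namespace KeyData

variable {V : Type*} [TopologicalSpace V] [Neg V] (D : KeyData N V)

/-- the target point -/
def w (a : Fin N) : Fin N → ℝ := fun i => if i = a then 2 else -1

lemma w_norm (a : Fin N) : ‖w a‖ ≤ 2 := by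
  rw [pi_norm_le_iff_of_nonneg (by norm_num)]
  intro i
  unfold w
  split_ifs <;> norm_num

lemma seg_norm (a b : Fin N) {t : ℝ} (ht : t ∈ Icc (0:ℝ) 1) :
    ‖(1 - t) • w a + t • w b‖ ≤ 2 := by
  calc ‖(1 - t) • w a + t • w b‖ ≤ ‖(1 - t) • w a‖ + ‖t • w b‖ := norm_add_le _ _
    _ = (1 - t) * ‖w a‖ + t * ‖w b‖ := by
        rw [norm_smul, norm_smul, Real.norm_eq_abs, Real.norm_eq_abs, abs_of_nonneg ht.1,
          abs_of_nonneg (by linarith [ht.2])]
    _ ≤ (1 - t) * 2 + t * 2 := by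
        gcongr
        · linarith [ht.2]
        · exact w_norm a
        · exact ht.1
        · exact w_norm b
    _ = 2 := by ring

lemma hom_eq (a b : Fin N) (A : Fin N → ℝ) (t : ℝ) :
    (1 - t) • (D.Φ A - w a) + t • (D.Φ A - w b) = D.Φ A - ((1 - t) • w a + t • w b) := by
  simp only [smul_sub, sub_smul, one_smul]
  abel

/-- zeros in the closed ball of the maps of the homotopy -/
lemma zero_props (a b : Fin N) {t : ℝ} (ht : t ∈ Icc (0:ℝ) 1) {A : Fin N → ℝ} (hA : ‖A‖ ≤ 1)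
    (h0 : (1 - t) • (D.Φ A - w a) + t • (D.Φ A - w b) = 0) :
    ‖A‖ < 1 ∧ ∃ l : V → ℝ, (∀ z z', D.q A z z' = l z * l z') ∧
      ∀ z, z ∈ D.C a → z ∈ D.C b → l z ≠ 0 := by
  rw [hom_eq] at h0
  have h1 : D.Φ A = (1 - t) • w a + t • w b := sub_eq_zero.1 h0
  constructor
  · refine lt_of_le_of_ne hA fun h => ?_
    have h2 := D.big A h
    rw [h1] at h2
    have h3 := seg_norm a b ht
    linarith
  · apply D.r1 a b A
    · intro i hia hib
      rw [h1]
      simp only [w, Pi.add_apply, Pi.smul_apply, smul_eq_mul, if_neg hia, if_neg hib]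
      linarith
    · rw [h1]
      by_cases hab : a = b
      · subst hab
        left
        simp only [w, Pi.add_apply, Pi.smul_apply, smul_eq_mul, if_true]
        linarith
      · simp only [w, Pi.add_apply, Pi.smul_apply, smul_eq_mul, if_true, if_neg hab,
          if_neg (Ne.symm hab)]
        by_contra hcon
        push Not at hcon
        linarith [hcon.1, hcon.2]

lemma zero_props' (a : Fin N) {A : Fin N → ℝ} (hA : ‖A‖ ≤ 1) (h0 : D.Φ A - w a = 0) :
    ‖A‖ < 1 ∧ ∃ l : V → ℝ, (∀ z z', D.q A z z' = l z * l z') ∧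
      ∀ z, z ∈ D.C a → l z ≠ 0 := by
  obtain ⟨h1, l, h2, h3⟩ := D.zero_props a a (t := 0) (by simp) hA (by simp [h0])
  exact ⟨h1, l, h2, fun z hz => h3 z hz hz⟩

lemma q_cont (z z' : V) : Continuous fun A => D.q A z z' :=
  (D.qcont z').comp (Continuous.prodMk_left z)

lemma f_cont (a : Fin N) : Continuous fun A => D.Φ A - w a := D.cont.sub continuous_const

/-- the degree over `w a` of `Φ` on the set where `q A z z' < 0` -/
noncomputable def n (a : Fin N) (z z' : V) : ℝ :=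
  degR (fun A => D.Φ A - w a) (cutSet fun _ : Unit => fun A => D.q A z z')

lemma n_int (a : Fin N) {z z' : V} (hz : z ∈ D.C a) (hz' : z' ∈ D.C a) :
    ∃ k : ℤ, D.n a z z' = k := by
  refine degR_int (cutSet_open fun _ => D.q_cont z z') (cutSet_bdd _)
    (D.f_cont a).continuousOn (cutSet_frontier (fun _ => D.q_cont z z') ?_)
  intro x hx h0
  obtain ⟨h1, l, h2, h3⟩ := D.zero_props' a hx h0
  refine ⟨h1, fun _ => ?_⟩
  rw [h2]
  exact mul_ne_zero (h3 z hz) (h3 z' hz')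

lemma total (a : Fin N) : ∃ k : ℤ, degR (fun A => D.Φ A - w a) (ball 0 1) = ((2 * k + 1 : ℤ) : ℝ) := by
  obtain ⟨k, hk⟩ := degR_odd D.cont D.odd (fun x hx h0 => by
    have := D.big x hx
    rw [h0, norm_zero] at this
    linarith)
  refine ⟨k, ?_⟩
  rw [← hk]
  symm
  apply degR_homotopy isOpen_ball isBounded_ball D.cont.continuousOn (D.f_cont a).continuousOn
  intro x hx t ht h0
  have hx1 : ‖x‖ = 1 := by
    have := frontier_ball_subset_sphere hx
    simpa using this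
  have h1 : (1 - t) • D.Φ x + t • (D.Φ x - w a) = D.Φ x - t • w a := by
    simp only [smul_sub, sub_smul, one_smul]; abel
  rw [h1] at h0
  have h2 : D.Φ x = t • w a := sub_eq_zero.1 h0
  have h3 := D.big x hx1
  rw [h2, norm_smul, Real.norm_eq_abs, abs_of_nonneg ht.1] at h3
  have h4 := w_norm a
  nlinarith [ht.1, ht.2, norm_nonneg (w a)]

/-- (L1) -/
lemma n_neg (a : Fin N) {z z' : V} (hz : z ∈ D.C a) (hz' : z' ∈ D.C a) :
    D.n a z z' + D.n a (-z) z' = degR (fun A => D.Φ A - w a) (ball 0 1) := by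
  symm
  refine degR_add isBounded_ball isOpen_ball (D.f_cont a).continuousOn
    (cutSet_open fun _ => D.q_cont z z') (cutSet_open fun _ => D.q_cont (-z) z')
    (cutSet_sub _) (cutSet_sub _) ?_ ?_
  · rw [disjoint_left]
    intro A h1 h2
    have h3 := h1.2 ()
    have h4 := h2.2 ()
    simp only [D.qneg] at h3 h4
    linarith
  · intro A hA h0
    have hA' : ‖A‖ ≤ 1 := by
      have := closure_ball_subset_closedBall hA
      simpa using this
    obtain ⟨h1, l, h2, h3⟩ := D.zero_props' a hA' h0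
    have h4 : D.q A z z' ≠ 0 := by
      rw [h2]; exact mul_ne_zero (h3 z hz) (h3 z' hz')
    rcases lt_or_gt_of_ne h4 with h5 | h5
    · left
      exact ⟨by simpa using h1, fun _ => h5⟩
    · right
      refine ⟨by simpa using h1, fun _ => ?_⟩
      simp only [D.qneg]
      linarith

/-- the three products -/
def q3 (z₁ z₂ z₃ : V) (s : Fin 3 → ℝ) : Fin 3 → (Fin N → ℝ) → ℝ :=
  ![fun A => s 0 * D.q A z₁ z₂, fun A => s 1 * D.q A z₂ z₃, fun A => s 2 * D.q A z₁ z₃]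

lemma q3_cont (z₁ z₂ z₃ : V) (s : Fin 3 → ℝ) : ∀ j, Continuous (D.q3 z₁ z₂ z₃ s j) := by
  intro j
  fin_cases j
  · exact continuous_const.mul (D.q_cont z₁ z₂)
  · exact continuous_const.mul (D.q_cont z₂ z₃)
  · exact continuous_const.mul (D.q_cont z₁ z₃)

/-- the degree on a sign region -/
noncomputable def T (a : Fin N) (z₁ z₂ z₃ : V) (s : Fin 3 → ℝ) : ℝ :=
  degR (fun A => D.Φ A - w a) (cutSet (D.q3 z₁ z₂ z₃ s))

lemma mem_q3 {z₁ z₂ z₃ : V} {s : Fin 3 → ℝ} {A : Fin N → ℝ} :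
    A ∈ cutSet (D.q3 z₁ z₂ z₃ s) ↔ ‖A‖ < 1 ∧ s 0 * D.q A z₁ z₂ < 0 ∧ s 1 * D.q A z₂ z₃ < 0 ∧
      s 2 * D.q A z₁ z₃ < 0 := by
  simp only [cutSet, mem_ofPred_eq, mem_ball_zero_iff, q3]
  constructor
  · rintro ⟨h1, h2⟩
    exact ⟨h1, h2 0, h2 1, h2 2⟩
  · rintro ⟨h1, h2, h3, h4⟩
    refine ⟨h1, fun j => ?_⟩
    fin_cases j
    · exact h2
    · exact h3
    · exact h4

lemma T_int (a : Fin N) {z₁ z₂ z₃ : V} (h₁ : z₁ ∈ D.C a) (h₂ : z₂ ∈ D.C a) (h₃ : z₃ ∈ D.C a)
    {s : Fin 3 → ℝ} (hs : ∀ j, s j ≠ 0) : ∃ k : ℤ, D.T a z₁ z₂ z₃ s = k := by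
  refine degR_int (cutSet_open (D.q3_cont z₁ z₂ z₃ s)) (cutSet_bdd _)
    (D.f_cont a).continuousOn (cutSet_frontier (D.q3_cont z₁ z₂ z₃ s) ?_)
  intro x hx h0
  obtain ⟨h1, l, h2, h3⟩ := D.zero_props' a hx h0
  refine ⟨h1, fun j => ?_⟩
  fin_cases j
  · exact mul_ne_zero (hs 0) (by rw [h2]; exact mul_ne_zero (h3 _ h₁) (h3 _ h₂))
  · exact mul_ne_zero (hs 1) (by rw [h2]; exact mul_ne_zero (h3 _ h₂) (h3 _ h₃))
  · exact mul_ne_zero (hs 2) (by rw [h2]; exact mul_ne_zero (h3 _ h₁) (h3 _ h₃))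

lemma split {r0 : (Fin N → ℝ) → ℝ} (hr0 : Continuous r0) (a : Fin N) {z₁ z₂ z₃ : V}
    {s s' : Fin 3 → ℝ}
    (hs : ∀ A, A ∈ cutSet (D.q3 z₁ z₂ z₃ s) → r0 A < 0)
    (hs' : ∀ A, A ∈ cutSet (D.q3 z₁ z₂ z₃ s') → r0 A < 0)
    (hd : ∃ j, s j = - s' j)
    (hc : ∀ A, ‖A‖ ≤ 1 → D.Φ A - w a = 0 → r0 A ≤ 0 →
      A ∈ cutSet (D.q3 z₁ z₂ z₃ s) ∨ A ∈ cutSet (D.q3 z₁ z₂ z₃ s')) :
    degR (fun A => D.Φ A - w a) (cutSet fun _ : Unit => r0)
      = D.T a z₁ z₂ z₃ s + D.T a z₁ z₂ z₃ s' := by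
  refine degR_add (cutSet_bdd _) (cutSet_open fun _ => hr0) (D.f_cont a).continuousOn
    (cutSet_open (D.q3_cont z₁ z₂ z₃ s)) (cutSet_open (D.q3_cont z₁ z₂ z₃ s'))
    (fun A hA => ⟨hA.1, fun _ => hs A hA⟩) (fun A hA => ⟨hA.1, fun _ => hs' A hA⟩) ?_ ?_
  · rw [disjoint_left]
    intro A h1 h2
    obtain ⟨j, hj⟩ := hd
    rw [mem_q3] at h1 h2
    obtain ⟨-, h10, h11, h12⟩ := h1
    obtain ⟨-, h20, h21, h22⟩ := h2
    fin_cases j
    · simp only [Fin.zero_eta] at hj; rw [hj] at h10; linarith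
    · simp only [Fin.mk_one] at hj; rw [hj] at h11; linarith
    · simp only [Fin.reduceFinMk] at hj; rw [hj] at h12; linarith
  · intro A hA h0
    obtain ⟨h1, h2⟩ := cutSet_closure (fun _ => hr0) hA
    exact hc A h1 h0 (h2 ())

/-- (L2) -/
lemma n_cocycle (a : Fin N) {z₁ z₂ z₃ : V} (h₁ : z₁ ∈ D.C a) (h₂ : z₂ ∈ D.C a) (h₃ : z₃ ∈ D.C a) :
    ∃ k : ℤ, D.n a z₁ z₂ + D.n a z₂ z₃ + D.n a z₁ z₃ = 2 * k := by
  obtain ⟨k1, hk1⟩ := D.T_int a h₁ h₂ h₃ (s := ![1, 1, -1]) (by intro j; fin_cases j <;> simp)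
  obtain ⟨k2, hk2⟩ := D.T_int a h₁ h₂ h₃ (s := ![1, -1, 1]) (by intro j; fin_cases j <;> simp)
  obtain ⟨k3, hk3⟩ := D.T_int a h₁ h₂ h₃ (s := ![-1, 1, 1]) (by intro j; fin_cases j <;> simp)
  have key : ∀ A, ‖A‖ ≤ 1 → D.Φ A - w a = 0 → ‖A‖ < 1 ∧ D.q A z₁ z₂ ≠ 0 ∧ D.q A z₂ z₃ ≠ 0 ∧
      D.q A z₁ z₃ ≠ 0 ∧ 0 < D.q A z₁ z₂ * D.q A z₂ z₃ * D.q A z₁ z₃ := by
    intro A hA h0
    obtain ⟨h1, l, h2, h3⟩ := D.zero_props' a hA h0
    have e1 := h3 _ h₁
    have e2 := h3 _ h₂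
    have e3 := h3 _ h₃
    simp only [h2]
    refine ⟨h1, mul_ne_zero e1 e2, mul_ne_zero e2 e3, mul_ne_zero e1 e3, ?_⟩
    have : l z₁ * l z₂ * (l z₂ * l z₃) * (l z₁ * l z₃) = (l z₁ * l z₂ * l z₃) ^ 2 := by ring
    rw [this]
    positivity
  have e12 : D.n a z₁ z₂ = k1 + k2 := by
    rw [← hk1, ← hk2]
    refine D.split (D.q_cont z₁ z₂) a ?_ ?_ ⟨1, by simp⟩ ?_
    · intro A hA; have := (D.mem_q3.1 hA).2.1; simpa using this
    · intro A hA; have := (D.mem_q3.1 hA).2.1; simpa using this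
    · intro A hA h0 h1
      obtain ⟨g0, g1, g2, g3, g4⟩ := key A hA h0
      have h1' : D.q A z₁ z₂ < 0 := lt_of_le_of_ne h1 g1
      simp only [mem_q3, Matrix.cons_val_zero, Matrix.cons_val_one, Matrix.cons_val, one_mul]
      rcases lt_or_gt_of_ne g2 with g | g
      · left
        refine ⟨g0, h1', g, ?_⟩
        have := mul_pos_of_neg_of_neg h1' g
        have : 0 < D.q A z₁ z₃ := by
          by_contra hcon; push Not at hcon; nlinarith
        linarith
      · right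
        refine ⟨g0, h1', by linarith, ?_⟩
        have := mul_neg_of_neg_of_pos h1' g
        by_contra hcon; push Not at hcon; nlinarith
  have e23 : D.n a z₂ z₃ = k1 + k3 := by
    rw [← hk1, ← hk3]
    refine D.split (D.q_cont z₂ z₃) a ?_ ?_ ⟨0, by simp⟩ ?_
    · intro A hA; have := (D.mem_q3.1 hA).2.2.1; simpa using this
    · intro A hA; have := (D.mem_q3.1 hA).2.2.1; simpa using this
    · intro A hA h0 h1
      obtain ⟨g0, g1, g2, g3, g4⟩ := key A hA h0
      have h1' : D.q A z₂ z₃ < 0 := lt_of_le_of_ne h1 g2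
      simp only [mem_q3, Matrix.cons_val_zero, Matrix.cons_val_one, Matrix.cons_val, one_mul]
      rcases lt_or_gt_of_ne g1 with g | g
      · left
        refine ⟨g0, g, h1', ?_⟩
        have := mul_pos_of_neg_of_neg g h1'
        have : 0 < D.q A z₁ z₃ := by
          by_contra hcon; push Not at hcon; nlinarith
        linarith
      · right
        refine ⟨g0, by linarith, h1', ?_⟩
        have := mul_neg_of_pos_of_neg g h1'
        by_contra hcon; push Not at hcon; nlinarith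
  have e13 : D.n a z₁ z₃ = k2 + k3 := by
    rw [← hk2, ← hk3]
    refine D.split (D.q_cont z₁ z₃) a ?_ ?_ ⟨0, by simp⟩ ?_
    · intro A hA; have := (D.mem_q3.1 hA).2.2.2; simpa using this
    · intro A hA; have := (D.mem_q3.1 hA).2.2.2; simpa using this
    · intro A hA h0 h1
      obtain ⟨g0, g1, g2, g3, g4⟩ := key A hA h0
      have h1' : D.q A z₁ z₃ < 0 := lt_of_le_of_ne h1 g3
      simp only [mem_q3, Matrix.cons_val_zero, Matrix.cons_val_one, Matrix.cons_val, one_mul]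
      rcases lt_or_gt_of_ne g1 with g | g
      · left
        refine ⟨g0, g, ?_, h1'⟩
        have := mul_pos_of_neg_of_neg g h1'
        have : 0 < D.q A z₂ z₃ := by
          by_contra hcon; push Not at hcon; nlinarith
        linarith
      · right
        refine ⟨g0, by linarith, ?_, h1'⟩
        have := mul_neg_of_pos_of_neg g h1'
        by_contra hcon; push Not at hcon; nlinarith
  refine ⟨k1 + k2 + k3, ?_⟩
  rw [e12, e23, e13]
  push_cast
  ring

/-- (L4) -/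
lemma n_eq (a b : Fin N) {z z' : V} (hza : z ∈ D.C a) (hzb : z ∈ D.C b) (hza' : z' ∈ D.C a)
    (hzb' : z' ∈ D.C b) : D.n a z z' = D.n b z z' := by
  refine degR_homotopy (cutSet_open fun _ => D.q_cont z z') (cutSet_bdd _)
    (D.f_cont a).continuousOn (D.f_cont b).continuousOn ?_
  intro x hx t ht
  revert x
  refine cutSet_frontier (f := fun A => (1 - t) • (D.Φ A - w a) + t • (D.Φ A - w b))
    (fun _ => D.q_cont z z') ?_
  intro x hx h0
  obtain ⟨h1, l, h2, h3⟩ := D.zero_props a b ht hx h0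
  refine ⟨h1, fun _ => ?_⟩
  rw [h2]
  exact mul_ne_zero (h3 z hza hzb) (h3 z' hza' hzb')

/-- (L3) -/
lemma n_loc (a : Fin N) {z z' : V} (hz : z ∈ D.C a) (hz' : z' ∈ D.C a) :
    ∀ᶠ z₁ in 𝓝 z, D.n a z₁ z' = D.n a z z' := by
  set K : Set (Fin N → ℝ) := {A | ‖A‖ ≤ 1 ∧ D.Φ A - w a = 0} with hK
  have hKc : IsCompact K := by
    have : K = closedBall (0 : Fin N → ℝ) 1 ∩ (fun A => D.Φ A - w a) ⁻¹' {0} := by
      ext A; simp [hK]
    rw [this]
    exact (isCompact_closedBall _ _).inter_right (isClosed_singleton.preimage (D.f_cont a))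
  have h1 : ∀ᶠ z₁ in 𝓝 z, ∀ A ∈ K, 0 < D.q A z₁ z' * D.q A z z' := by
    have hc : Continuous fun p : V × (Fin N → ℝ) => D.q p.2 p.1 z' * D.q p.2 z z' := by
      refine ((D.qcont z').comp continuous_swap).mul ?_
      exact (D.q_cont z z').comp continuous_snd
    refine hKc.eventually_forall_of_forall_eventually
      (P := fun z₁ A => 0 < D.q A z₁ z' * D.q A z z') ?_
    intro A hA
    obtain ⟨-, l, h2, h3⟩ := D.zero_props' a hA.1 hA.2
    have h4 : (0:ℝ) < D.q A z z' * D.q A z z' := by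
      rw [h2]
      exact mul_self_pos.2 (mul_ne_zero (h3 z hz) (h3 z' hz'))
    exact (hc.tendsto (z, A)).eventually (lt_mem_nhds h4)
  have h1' := h1.self_of_nhds
  filter_upwards [h1] with z₁ hz₁
  set U : Set (Fin N → ℝ) := cutSet fun j : Bool => fun A => if j then D.q A z₁ z' else D.q A z z'
    with hU
  have hUc : ∀ j : Bool, Continuous fun A => if j then D.q A z₁ z' else D.q A z z' := by
    rintro (_ | _)
    · simpa using D.q_cont z z'
    · simpa using D.q_cont z₁ z'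
  have e1 : D.n a z₁ z' = degR (fun A => D.Φ A - w a) U := by
    refine degR_excision (cutSet_bdd _) (cutSet_open fun _ => D.q_cont z₁ z')
      (D.f_cont a).continuousOn (cutSet_open hUc) (fun A hA => ⟨hA.1, fun _ => by simpa using hA.2 true⟩) ?_
    intro A hA h0
    obtain ⟨g1, g2⟩ := cutSet_closure (fun _ => D.q_cont z₁ z') hA
    have g3 := hz₁ A ⟨g1, h0⟩
    obtain ⟨g4, -⟩ := D.zero_props' a g1 h0
    have g5 : D.q A z₁ z' < 0 := lt_of_le_of_ne (g2 ()) (fun h => by rw [h, zero_mul] at g3; exact lt_irrefl _ g3)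
    refine ⟨by simpa using g4, ?_⟩
    rintro (_ | _)
    · simp only [Bool.false_eq_true, if_false]
      by_contra hcon; push Not at hcon; nlinarith
    · simpa using g5
  have e2 : D.n a z z' = degR (fun A => D.Φ A - w a) U := by
    refine degR_excision (cutSet_bdd _) (cutSet_open fun _ => D.q_cont z z')
      (D.f_cont a).continuousOn (cutSet_open hUc) (fun A hA => ⟨hA.1, fun _ => by simpa using hA.2 false⟩) ?_
    intro A hA h0
    obtain ⟨g1, g2⟩ := cutSet_closure (fun _ => D.q_cont z z') hA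
    have g3 := hz₁ A ⟨g1, h0⟩
    obtain ⟨g4, -⟩ := D.zero_props' a g1 h0
    have g5 : D.q A z z' < 0 := lt_of_le_of_ne (g2 ()) (fun h => by rw [h, mul_zero] at g3; exact lt_irrefl _ g3)
    refine ⟨by simpa using g4, ?_⟩
    rintro (_ | _)
    · simpa using g5
    · simp only [if_true]
      by_contra hcon; push Not at hcon; nlinarith
  rw [e1, e2]

/-- the parity of `n` -/
noncomputable def P (a : Fin N) (z z' : V) : ZMod 2 := ((⌊D.n a z z'⌋ : ℤ) : ZMod 2)

lemma P_of {a : Fin N} {z z' : V} {k : ℤ} (h : D.n a z z' = k) : D.P a z z' = (k : ZMod 2) := by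
  rw [P, h, Int.floor_intCast]

lemma P_neg (a : Fin N) {z z' : V} (hz : z ∈ D.C a) (hz' : z' ∈ D.C a) :
    D.P a (-z) z' = D.P a z z' + 1 := by
  obtain ⟨k1, h1⟩ := D.n_int a hz hz'
  obtain ⟨k2, h2⟩ := D.n_int a (D.Cneg a z hz) hz'
  obtain ⟨k, hk⟩ := D.total a
  have h3 := D.n_neg a hz hz'
  rw [h1, h2, hk] at h3
  have h4 : k1 + k2 = 2 * k + 1 := by exact_mod_cast h3
  rw [D.P_of h1, D.P_of h2]
  have h5 : ((k1 + k2 : ℤ) : ZMod 2) = 1 := by
    rw [h4]
    push_cast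
    have : (2 : ZMod 2) = 0 := by decide
    rw [this]; ring
  push_cast at h5
  have h6 : (k1 : ZMod 2) + k1 = 0 := CharTwo.add_self_eq_zero _
  calc (k2 : ZMod 2) = ((k1 : ZMod 2) + k1) + k2 := by rw [h6, zero_add]
    _ = k1 + (k1 + k2) := by ring
    _ = k1 + 1 := by rw [h5]

lemma P_coc (a : Fin N) {z₁ z₂ z₃ : V} (h₁ : z₁ ∈ D.C a) (h₂ : z₂ ∈ D.C a) (h₃ : z₃ ∈ D.C a) :
    D.P a z₁ z₂ + D.P a z₂ z₃ + D.P a z₁ z₃ = 0 := by
  obtain ⟨k1, e1⟩ := D.n_int a h₁ h₂
  obtain ⟨k2, e2⟩ := D.n_int a h₂ h₃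
  obtain ⟨k3, e3⟩ := D.n_int a h₁ h₃
  obtain ⟨k, hk⟩ := D.n_cocycle a h₁ h₂ h₃
  rw [e1, e2, e3] at hk
  have h4 : k1 + k2 + k3 = 2 * k := by exact_mod_cast hk
  rw [D.P_of e1, D.P_of e2, D.P_of e3]
  have h5 : ((k1 + k2 + k3 : ℤ) : ZMod 2) = 0 := by
    rw [h4]
    push_cast
    have : (2 : ZMod 2) = 0 := by decide
    rw [this]; ring
  push_cast at h5
  exact h5

/-- **KEY LEMMA** (Lemma L of helper938 / Key Lemma of helper353, abstract form). -/
theorem key : ∃ (e : Fin N → V → ZMod 2) (s : Fin N → Fin N → ZMod 2),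
    (∀ a z, z ∈ D.C a → e a (-z) = e a z + 1) ∧
    (∀ a z, z ∈ D.C a → ∀ᶠ z' in 𝓝 z, e a z' = e a z) ∧
    (∀ a b z, z ∈ D.C a → z ∈ D.C b → e a z + e b z = s a b) := by
  classical
  set e : Fin N → V → ZMod 2 := fun a z =>
    if h : (D.C a).Nonempty then D.P a z h.some else 0 with he
  set s : Fin N → Fin N → ZMod 2 := fun a b =>
    if h : (D.C a ∩ D.C b).Nonempty then e a h.some + e b h.some else 0 with hs
  have hev : ∀ a z, z ∈ D.C a → ∃ z0 ∈ D.C a, ∀ z', e a z' = D.P a z' z0 := by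
    intro a z hz
    have h : (D.C a).Nonempty := ⟨z, hz⟩
    refine ⟨h.some, h.some_mem, fun z' => ?_⟩
    simp only [he, dif_pos h]
  refine ⟨e, s, ?_, ?_, ?_⟩
  · intro a z hz
    obtain ⟨z0, hz0, h⟩ := hev a z hz
    rw [h, h, D.P_neg a hz hz0]
  · intro a z hz
    obtain ⟨z0, hz0, h⟩ := hev a z hz
    filter_upwards [D.n_loc a hz hz0] with z₁ h1
    rw [h, h, P, P, h1]
  · intro a b z hza hzb
    have h : (D.C a ∩ D.C b).Nonempty := ⟨z, hza, hzb⟩
    simp only [hs, dif_pos h]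
    set y := h.some with hy
    have hya : y ∈ D.C a := h.some_mem.1
    have hyb : y ∈ D.C b := h.some_mem.2
    obtain ⟨za, hza0, ha⟩ := hev a z hza
    obtain ⟨zb, hzb0, hb⟩ := hev b z hzb
    have h1 : e a z + e a y = D.P a z y := by
      have h2 := D.P_coc a hza hya hza0
      rw [ha, ha]
      have h3 : D.P a z y + D.P a z y = 0 := CharTwo.add_self_eq_zero _
      calc D.P a z za + D.P a y za = (D.P a z y + D.P a y za + D.P a z za) + D.P a z y
            - (D.P a z y + D.P a z y) := by ring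
        _ = D.P a z y := by rw [h2, h3]; ring
    have h2 : e b z + e b y = D.P b z y := by
      have h2 := D.P_coc b hzb hyb hzb0
      rw [hb, hb]
      have h3 : D.P b z y + D.P b z y = 0 := CharTwo.add_self_eq_zero _
      calc D.P b z zb + D.P b y zb = (D.P b z y + D.P b y zb + D.P b z zb) + D.P b z y
            - (D.P b z y + D.P b z y) := by ring
        _ = D.P b z y := by rw [h2, h3]; ring
    have h3 : D.P a z y = D.P b z y := by
      rw [P, P, D.n_eq a b hza hzb hya hyb]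
    have h4 : e a z + e a y = e b z + e b y := by rw [h1, h2, h3]
    have h5 : e a y + e a y = 0 := CharTwo.add_self_eq_zero _
    have h6 : e b z + e b z = 0 := CharTwo.add_self_eq_zero _
    calc e a z + e b z = (e a z + e a y) + e b z - (e a y + e a y) + e a y := by ring
      _ = (e b z + e b y) + e b z + e a y := by rw [h4, h5]; ring
      _ = (e b z + e b z) + e b y + e a y := by ring
      _ = e a y + e b y := by rw [h6]; ring

end KeyData

end Vale.Agent.P052.R2.H102
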